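import Mathlib
import Vale.Agent.Lib.P337.Form
import Vale.Agent.Lib.P337.Real.DetSign
import Vale.Agent.Lib.P337.Real.GapPos
import Vale.Agent.Lib.P337.Real.GapZero
import Vale.Agent.Lib.P337.Real.Generic
import Vale.Agent.Lib.P337.Uni.Defs

/-!
P337: the decisive integer.
-/

namespace Vale.Agent.P337

open MvPolynomial

theorem gH_deg_of {N : ℕ} {R : Type} [CommRing R] {e : ℕ} (he : 2 ≤ e) (L : R) (b : Fin N → R)
    {p : MvPolynomial (Fin N) R} (hp : p.totalDegree < 2 * e) :
    ∀ i, (gH L b p i).totalDegree < 2 * e - 1 := gH_totalDegree he L b hp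

/-- general decisive element: determinant of `PP(g)`, `PP` built from the characteristic
polynomial of `g` -/
noncomputable def decisive {N d : ℕ} {R : Type} [CommRing R] (hd : 1 ≤ d)
    {H : Fin N → MvPolynomial (Fin N) R} (hH : ∀ i, (H i).totalDegree < d)
    (g : MvPolynomial (Fin N) R) (U : UP) : R :=
  (Polynomial.aeval (mmat hd hH g) (U.PP (mmat hd hH g).charpoly)).det

theorem mainDefs_aeval_map {n R R' : Type} [Fintype n] [DecidableEq n] [CommRing R] [CommRing R']
    (φ : R →+* R') (M : Matrix n n R) (P : Polynomial R) :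
    Polynomial.aeval (M.map φ) (P.map φ) = (Polynomial.aeval M P).map φ := by
  have h1 : (φ.mapMatrix).comp (algebraMap R (Matrix n n R)) =
      (algebraMap R' (Matrix n n R')).comp φ := by
    refine RingHom.ext fun x => ?_
    simp only [RingHom.comp_apply, RingHom.mapMatrix_apply, Matrix.algebraMap_eq_diagonal]
    ext i j
    simp only [Matrix.map_apply, Matrix.diagonal_apply]
    split_ifs <;> simp
  have h2 : (Polynomial.aeval M P).map φ = φ.mapMatrix (Polynomial.aeval M P) := rfl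
  rw [h2, Polynomial.aeval_def, Polynomial.aeval_def, Polynomial.hom_eval₂, h1,
    Polynomial.eval₂_map]
  rfl

/-- base change for the decisive element -/
theorem decisive_map {N d : ℕ} {R R' : Type} [CommRing R] [CommRing R'] (φ : R →+* R')
    (hd : 1 ≤ d) {H : Fin N → MvPolynomial (Fin N) R} (hH : ∀ i, (H i).totalDegree < d)
    (hH' : ∀ i, (map φ (H i)).totalDegree < d) (g : MvPolynomial (Fin N) R) (U : UP) :
    decisive hd hH' (map φ g) U = φ (decisive hd hH g U) := by
  unfold decisive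
  rw [mmat_map φ hd hH hH' g, Matrix.charpoly_map, ← UP.PP_map, mainDefs_aeval_map,
    RingHom.map_det]
  rfl

/-- the decisive integer -/
noncomputable def nInt {N e : ℕ} (he : 2 ≤ e) {p : MvPolynomial (Fin N) ℤ}
    (hp : p.totalDegree < 2 * e) (s L : ℕ) (U : UP) : ℤ :=
  decisive (d := 2 * e - 1) (by omega) (gH_deg_of he (L : ℤ) (fun i : Fin N => ((bs s e i : ℕ) : ℤ)) hp)
    (gG e (L : ℤ) (fun i : Fin N => ((bs s e i : ℕ) : ℤ)) p) U

/-- the univariate parameters of a parameter record -/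
def Prm.U (P : Prm) : UP :=
  ⟨P.D, 2 ^ 2 ^ P.EC, 2 ^ 2 ^ P.ES, P.M, P.kap, P.a, P.a', P.Z, P.Th, P.w0, P.rho, P.q⟩

/-- bound for the critical values -/
def thu (N e Q s L : ℕ) : ℕ := thU N e Q L (s * 2 ^ (N * (2 * e - 1)))

/-- threshold for `C` -/
def thC (N e Q s : ℕ) : ℕ :=
  ((1 + thU N e Q 1 0) ^ ((2 * e - 1) ^ N) + 1) * (1 + 2 * e * N * (s * 2 ^ (N * (2 * e - 1))))

/-- second threshold for `L` -/
def thL2 (N e Q s C : ℕ) : ℕ :=
  (2 * (C + N * (4 * e * (s * 2 ^ (N * (2 * e - 1))) + 1) ^ 2) + thU N e Q 1 0) ^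
    ((2 * e - 1) ^ N) + 1

end Vale.Agent.P337
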