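import Mathlib
import Vale.Agent.Lib.P337.Main.Defs
import Vale.Agent.Lib.P337.Uni.Bound
import Vale.Agent.Lib.P337.Uni.DetAeval

/-!
P337: size of the decisive integer.
-/

namespace Vale.Agent.P337

open MvPolynomial

private theorem bnd_deg {N : ℕ} {R R' : Type} [CommRing R] [CommRing R'] (φ : R →+* R')
    (p : MvPolynomial (Fin N) R) : (map φ p).totalDegree ≤ p.totalDegree :=
  Finset.sup_mono (support_map_subset φ p)

private theorem bnd_congr {N d : ℕ} {R : Type} [CommRing R] (hd : 1 ≤ d)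
    {H H' : Fin N → MvPolynomial (Fin N) R} (hH : ∀ i, (H i).totalDegree < d)
    (hH' : ∀ i, (H' i).totalDegree < d) {g g' : MvPolynomial (Fin N) R} (h : H = H')
    (hg : g = g') : mmat hd hH g = mmat hd hH' g' := by
  subst h
  subst hg
  rfl

/-- size of the product over a multiset -/
private theorem bnd_prod (s : Multiset ℂ) (F : ℂ → ℂ) (B : ℝ) (h : ∀ z ∈ s, ‖F z‖ ≤ B) :
    ‖(s.map F).prod‖ ≤ B ^ s.card := by
  induction s using Multiset.induction_on with
  | empty => simp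
  | cons a s ih =>
    rw [Multiset.map_cons, Multiset.prod_cons, Multiset.card_cons, pow_succ', norm_mul]
    have h1 := h a (Multiset.mem_cons_self a s)
    have h2 := ih fun z hz => h z (Multiset.mem_cons_of_mem hz)
    exact mul_le_mul h1 h2 (norm_nonneg _) ((norm_nonneg _).trans h1)

/-- size of the decisive integer -/
theorem nInt_bound {N e : ℕ} (he : 2 ≤ e) {p : MvPolynomial (Fin N) ℤ}
    (hp : p.totalDegree < 2 * e) {Q : ℕ} (hQ : l1 p ≤ Q) {s L : ℕ} {U : UP}
    (hD : U.D = (2 * e - 1) ^ N) (haa : U.a ≤ U.a') (haa' : U.a' ≤ 2 * U.a) (hq : 0 < U.q) :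
    |nInt he hp s L U| ≤ (((U.D * U.Z * (U.w0 + U.q) * U.a + U.Th) *
      (3 * U.a * (U.S * thY U.D U.C (thu N e Q s L) + 2 ^ U.M + 1) ^ (2 * U.kap * (U.M + 1)) + 1) ^
        (U.D + 1)) ^ U.D : ℕ) := by
  have hd : 1 ≤ 2 * e - 1 := by omega
  have hH := gH_deg_of he (L : ℤ) (fun i : Fin N => ((bs s e i : ℕ) : ℤ)) hp
  have hpC : (map (Int.castRingHom ℂ) p).totalDegree < 2 * e :=
    lt_of_le_of_lt (bnd_deg _ _) hp
  have hHC := gH_deg_of he (L : ℂ) (fun i : Fin N => ((bs s e i : ℕ) : ℂ)) hpC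
  have hH2 : ∀ i, (map (Int.castRingHom ℂ)
      (gH (L : ℤ) (fun i : Fin N => ((bs s e i : ℕ) : ℤ)) p i)).totalDegree < 2 * e - 1 :=
    fun i => lt_of_le_of_lt (bnd_deg _ _) (hH i)
  have hmm : mmat hd hH2 (map (Int.castRingHom ℂ)
      (gG e (L : ℤ) (fun i : Fin N => ((bs s e i : ℕ) : ℤ)) p)) =
      mmat hd hHC (gG e (L : ℂ) (fun i : Fin N => ((bs s e i : ℕ) : ℂ))
        (map (Int.castRingHom ℂ) p)) := by
    apply bnd_congr
    · funext i
      rw [gH_map]
      simp only [eq_intCast, Int.cast_natCast]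
    · rw [gG_map]
      simp only [eq_intCast, Int.cast_natCast]
  have h7 := decisive_map (Int.castRingHom ℂ) hd hH hH2
    (gG e (L : ℤ) (fun i : Fin N => ((bs s e i : ℕ) : ℤ)) p) U
  have h8 : ((nInt he hp s L U : ℤ) : ℂ) =
      Int.castRingHom ℂ (decisive hd hH (gG e (L : ℤ) (fun i : Fin N => ((bs s e i : ℕ) : ℤ)) p)
        U) := rfl
  rw [← h7] at h8
  unfold decisive at h8
  rw [det_aeval_eq_prod, hmm] at h8
  set f := (mmat hd hHC (gG e (L : ℂ) (fun i : Fin N => ((bs s e i : ℕ) : ℂ))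
        (map (Int.castRingHom ℂ) p))).charpoly with hf
  have hmon : f.Monic := Matrix.charpoly_monic _
  have hdeg : f.natDegree = U.D := by
    rw [hf, Matrix.charpoly_natDegree_eq_dim, Fintype.card_fun, Fintype.card_fin, Fintype.card_fin,
      hD]
  have hD1 : 1 ≤ U.D := by
    rw [hD]
    exact Nat.one_le_pow _ _ (by omega)
  -- bound for the roots
  have hroot : ∀ z ∈ f.roots, ‖z‖ ≤ (thu N e Q s L : ℕ) := by
    intro z hz
    have h1 := (Polynomial.mem_roots'.1 hz).2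
    have hφ : ∀ n : ℤ, (fun a : ℂ => ‖a‖) (Int.castRingHom ℂ n) ≤ |(n : ℝ)| := by
      intro n
      simp
    have hLn : (fun a : ℂ => ‖a‖) (L : ℂ) ≤ (L : ℕ) := by
      simp
    have hb : ∀ i : Fin N, (fun a : ℂ => ‖a‖) ((fun i : Fin N => ((bs s e i : ℕ) : ℂ)) i) ≤
        ((s * 2 ^ (N * (2 * e - 1)) : ℕ) : ℝ) := by
      intro i
      have h4 : bs s e i ≤ s * 2 ^ (N * (2 * e - 1)) := by
        unfold bs
        exact Nat.mul_le_mul_left _ (Nat.pow_le_pow_right (by norm_num)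
          (Nat.mul_le_mul_right _ i.2.le))
      simp only [Complex.norm_natCast]
      exact_mod_cast h4
    have h2 := wnorm_gH_le isNrm_complex (Int.castRingHom ℂ) hφ he hp hQ hLn hb
    have h3 := wnorm_gG_le isNrm_complex (Int.castRingHom ℂ) hφ he hp hQ hLn hb
    refine (mmat_root_le ?_ hd hHC h2 _ z h1).trans h3
    have h5 : 1 ≤ 2 * e * Q * L + s * 2 ^ (N * (2 * e - 1)) + 1 := by omega
    exact_mod_cast h5
  have hcard : f.roots.card = U.D := by
    rw [← hdeg]
    exact (IsAlgClosed.splits f).natDegree_eq_card_roots.symm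
  have h9 := bnd_prod f.roots (fun z => (U.PP f).eval z) _ (fun z hz =>
    PP_bound U hmon hdeg hD1 hq hroot haa haa' (hroot z hz))
  rw [← h8, hcard] at h9
  have h10 : ‖((nInt he hp s L U : ℤ) : ℂ)‖ = |((nInt he hp s L U : ℤ) : ℝ)| := by
    simp
  rw [h10] at h9
  exact_mod_cast h9

end Vale.Agent.P337
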