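import Mathlib
import Vale.Agent.Lib.P337.Main.Defs
import Vale.Agent.Lib.P337.Alg.TraceSum
import Vale.Agent.Lib.P337.Alg.NewtonExp

/-!
P337: the ingredients of the formula modulo `r` are values of polynomials over `ZMod r`.
-/

namespace Vale.Agent.P337

open MvPolynomial

namespace Prm

variable (P : Prm)

/-- right hand sides of the gradient system over `ZMod r` -/
noncomputable def HR (i : Fin P.N) : MvPolynomial (Fin P.N) (ZMod P.r) :=
  gH ((P.L : ℕ) : ZMod P.r) (fun i : Fin P.N => ((P.b i : ℕ) : ZMod P.r))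
    (map (Int.castRingHom _) P.p) i

/-- the perturbed function over `ZMod r` -/
noncomputable def gR : MvPolynomial (Fin P.N) (ZMod P.r) :=
  gG P.e ((P.L : ℕ) : ZMod P.r) (fun i : Fin P.N => ((P.b i : ℕ) : ZMod P.r))
    (map (Int.castRingHom _) P.p)

theorem HR_deg (he : 2 ≤ P.e) (hp : P.p.totalDegree < 2 * P.e) (i : Fin P.N) :
    (P.HR i).totalDegree < P.d := by
  have h1 : (map (Int.castRingHom (ZMod P.r)) P.p).totalDegree < 2 * P.e :=
    lt_of_le_of_lt (Finset.sup_mono (support_map_subset _ _)) hp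
  exact gH_totalDegree he _ _ h1 i

theorem gz_eq (z : ℕ → ℕ) : P.gz z = eval (P.pt z) P.gR := by
  unfold gz gR gG ev0
  rw [Finset.sum_range, Finset.sum_range]
  simp only [map_add, map_mul, map_sum, map_pow, eval_X, eval_C, pt]
  push_cast
  rfl

theorem Hz_eq (i : Fin P.N) (z : ℕ → ℕ) : P.Hz i z = eval (P.pt z) (P.HR i) := by
  unfold Hz HR gH ev1
  rw [dif_pos i.2]
  simp only [map_sub, map_neg, map_mul, eval_C, pderiv_map, Fin.eta]

theorem Jz_eq (z : ℕ → ℕ) : P.Jz z = eval (P.pt z) (jac P.d P.HR) := by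
  unfold Jz jac
  rw [RingHom.map_det]
  congr 1
  ext i j
  simp only [Matrix.of_apply, RingHom.mapMatrix_apply, Matrix.map_apply]
  unfold Jent ev2 Fs HR gH
  rw [dif_pos i.2, dif_pos j.2]
  simp only [map_sub, map_neg, Derivation.leibniz, Derivation.leibniz_pow, pderiv_map, pderiv_C,
    Fin.eta, smul_eq_mul, mul_zero, add_zero, sub_zero, map_mul, map_nsmul, eval_C]
  by_cases hij : i = j
  · subst hij
    simp [pt]
  · have hij' : (i : ℕ) ≠ (j : ℕ) := fun h => hij (Fin.ext h)
    rw [if_neg hij', pderiv_X_of_ne hij]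
    simp

end Prm

end Vale.Agent.P337
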