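import Mathlib
import Vale.Agent.Lib.P337.Main.FormEqA

/-!
P337: traces and elementary symmetric functions in the formula modulo `r`.
-/

namespace Vale.Agent.P337

open MvPolynomial

theorem formEqB_pderiv_degree {N : ℕ} {R : Type} [CommRing R] (p : MvPolynomial (Fin N) R)
    (i : Fin N) : (pderiv i p).totalDegree ≤ p.totalDegree - 1 := by
  unfold totalDegree
  refine Finset.sup_le fun m hm => ?_
  rw [mem_support_iff, coeff_pderiv] at hm
  have h1 : m + Finsupp.single i 1 ∈ p.support := by
    rw [mem_support_iff]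
    intro h0
    rw [h0, zero_mul] at hm
    exact hm rfl
  have h2 := le_totalDegree h1
  have h3 : ((m + Finsupp.single i 1).sum fun _ e => e) = (m.sum fun _ e => e) + 1 := by
    rw [Finsupp.sum_add_index' (fun _ => rfl) (fun _ _ _ => rfl), Finsupp.sum_single_index rfl]
  rw [h3] at h2
  unfold totalDegree at h2
  omega

theorem jac_totalDegree_le {N : ℕ} {R : Type} [CommRing R] {d : ℕ} (hd : 1 ≤ d)
    {H : Fin N → MvPolynomial (Fin N) R} (hH : ∀ i, (H i).totalDegree < d) :
    (jac d H).totalDegree ≤ N * (d - 1) := by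
  classical
  have hent : ∀ i j, (pderiv j (Fs d H i)).totalDegree ≤ d - 1 := by
    intro i j
    unfold Fs
    rw [map_sub, pderiv_pow]
    refine (totalDegree_sub _ _).trans (max_le ?_ ?_)
    · refine (totalDegree_mul _ _).trans ?_
      have h1 : ((d : MvPolynomial (Fin N) R) * X i ^ (d - 1)).totalDegree ≤ d - 1 := by
        rw [← C_eq_coe_nat]
        refine (totalDegree_mul _ _).trans ?_
        rw [totalDegree_C, zero_add]
        refine (totalDegree_pow _ _).trans ?_
        refine (Nat.mul_le_mul_left _ (show (X i : MvPolynomial (Fin N) R).totalDegree ≤ 1 from ?_)).trans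
          (by simp)
        exact (totalDegree_monomial_le _ _).trans (by simp)
      have h2 : (pderiv j (X i : MvPolynomial (Fin N) R)).totalDegree = 0 := by
        rw [pderiv_X]
        by_cases hij : i = j
        · subst hij
          simp
        · simp [hij]
      omega
    · have h1 : (pderiv j (H i)).totalDegree ≤ (H i).totalDegree - 1 :=
        formEqB_pderiv_degree (H i) j
      have h2 := hH i
      omega
  unfold jac
  rw [Matrix.det_apply]
  refine totalDegree_finsetSum_le fun σ _ => ?_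
  have h1 : (∏ i, (Matrix.of fun i j => pderiv j (Fs d H i)) (σ i) i).totalDegree ≤ N * (d - 1) := by
    refine (totalDegree_finsetProd _ _).trans ?_
    refine (Finset.sum_le_sum fun i _ => hent (σ i) i).trans ?_
    simp
  rcases Int.units_eq_one_or (Equiv.Perm.sign σ) with h | h
  · rw [h, one_smul]
    exact h1
  · rw [h, Units.neg_smul, one_smul, totalDegree_neg]
    exact h1

namespace Prm

variable (P : Prm)

theorem trz_eq [Fact P.r.Prime] (hd1 : 1 ≤ P.d) (he : 2 ≤ P.e) (hp : P.p.totalDegree < 2 * P.e)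
    (hH : ∀ i, (P.HR i).totalDegree < P.d) (h : MvPolynomial (Fin P.N) (ZMod P.r))
    (hK : h.totalDegree + P.N * (P.d - 1) ≤ P.K)
    (hrK : P.K + P.N * P.K * (P.d - 1) + P.d * (P.K + 1) < P.r - 1) :
    P.trz (fun z => eval (P.pt z) h) = (mmat hd1 hH h).trace := by
  have hd : 2 ≤ P.d := by
    unfold Prm.d
    omega
  have hjac : (h * jac P.d P.HR).totalDegree ≤ P.K :=
    (totalDegree_mul _ _).trans ((Nat.add_le_add_left (jac_totalDegree_le hd1 hH) _).trans hK)
  have key := mmat_trace_sum hd1 hd hH h P.K hjac hrK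
  refine Eq.trans ?_ key.symm
  refine congrArg (fun t => (-1) ^ P.N * t) (Finset.sum_congr rfl fun z _ => ?_)
  have hpt : P.pt (ext z) = fun i : Fin P.N => ((z i : ℕ) : ZMod P.r) := by
    funext i
    simp [pt, ext]
  have hT : P.Tz (ext z) = eval (fun i : Fin P.N => ((z i : ℕ) : ZMod P.r)) (jac P.d P.HR) *
      ∏ i : Fin P.N, ∑ k ∈ Finset.range (P.K + 1),
        eval (fun i : Fin P.N => ((z i : ℕ) : ZMod P.r)) (P.HR i) ^ k *
            ((z i : ZMod P.r)⁻¹) ^ (P.d * (k + 1) - 1) := by
    rw [Tz, Jz_eq, hpt, Finset.prod_range]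
    refine congrArg _ (Finset.prod_congr rfl fun i _ => ?_)
    refine Finset.sum_congr rfl fun k _ => ?_
    rw [Hz_eq, hpt]
    simp [ext]
  rw [hT]
  refine congrArg (fun t => t * _) ?_
  change eval (P.pt (ext z)) h = _
  rw [hpt]

theorem expF_eq [Fact P.r.Prime] (hD : P.D * P.D + P.D + 2 < P.r - 1) (S : ℕ → ZMod P.r) {j : ℕ}
    (hj : j ≤ P.D) : P.expF S j = expc P.D S j := by
  unfold expF expc
  refine Finset.sum_congr rfl fun l hl => ?_
  have hl' : l ≤ P.D := by
    have := Finset.mem_range.1 hl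
    omega
  congr 1
  have hdeg : (∑ i ∈ Finset.Ico 1 (P.D + 1), Polynomial.C ((-1) ^ (i - 1) * S i *
      ((i : ℕ) : ZMod P.r)⁻¹) * Polynomial.X ^ i).natDegree ≤ P.D := by
    refine Polynomial.natDegree_sum_le_of_forall_le _ _ fun i hi => ?_
    refine (Polynomial.natDegree_C_mul_X_pow_le _ _).trans ?_
    have := (Finset.mem_Ico.1 hi).2
    omega
  have hdeg2 : ((∑ i ∈ Finset.Ico 1 (P.D + 1), Polynomial.C ((-1) ^ (i - 1) * S i *
      ((i : ℕ) : ZMod P.r)⁻¹) * Polynomial.X ^ i) ^ l).natDegree < P.r - 1 := by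
    refine lt_of_le_of_lt (Polynomial.natDegree_pow_le.trans (Nat.mul_le_mul hl' hdeg)) ?_
    omega
  rw [polynomial_coeff_eq_sum _ j hdeg2 (by omega)]
  congr 1
  refine Finset.sum_congr rfl fun x _ => ?_
  congr 1
  rw [Polynomial.eval_pow, Polynomial.eval_finsetSum]
  congr 1
  refine Finset.sum_congr rfl fun i _ => ?_
  rw [Polynomial.eval_mul, Polynomial.eval_C, Polynomial.eval_pow, Polynomial.eval_X]

end Prm

end Vale.Agent.P337
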