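import Mathlib
import Vale.Agent.Lib.P337.Main.FormEqB

/-!
P337: characteristic polynomial, its derivatives and the isolating polynomial in the formula
modulo `r`.
-/

namespace Vale.Agent.P337

open MvPolynomial

theorem mmat_pow' {N : ℕ} {R : Type} [CommRing R] {d : ℕ} (hd : 1 ≤ d)
    {H : Fin N → MvPolynomial (Fin N) R} (hH : ∀ i, (H i).totalDegree < d)
    (g : MvPolynomial (Fin N) R) (i : ℕ) : mmat hd hH (g ^ i) = mmat hd hH g ^ i := by
  simp [mmat]

namespace Prm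

variable (P : Prm)

theorem card_fun_eq_D : Fintype.card (Fin P.N → Fin P.d) = P.D := by
  simp [Prm.D]

theorem natCast_ne_zero_of_le_D [Fact P.r.Prime] (hD : P.D * P.D + P.D + 2 < P.r - 1) {i : ℕ}
    (h1 : 1 ≤ i) (h2 : i ≤ P.D) : (i : ZMod P.r) ≠ 0 := by
  rw [Ne, ZMod.natCast_eq_zero_iff]
  intro h
  have := Nat.le_of_dvd h1 h
  omega

theorem pw_eq_trace [Fact P.r.Prime] (hd1 : 1 ≤ P.d) (he : 2 ≤ P.e)
    (hp : P.p.totalDegree < 2 * P.e) (hH : ∀ i, (P.HR i).totalDegree < P.d)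
    (hK : 2 * P.e * P.D + P.N * (P.d - 1) ≤ P.K)
    (hrK : P.K + P.N * P.K * (P.d - 1) + P.d * (P.K + 1) < P.r - 1) {i : ℕ} (hi : i ≤ P.D) :
    P.pw i = (mmat hd1 hH P.gR ^ i).trace := by
  have h1 : (fun z => P.gz z ^ i) = fun z => eval (P.pt z) (P.gR ^ i) := by
    funext z
    rw [gz_eq, map_pow]
  have hp' : (map (Int.castRingHom (ZMod P.r)) P.p).totalDegree < 2 * P.e :=
    lt_of_le_of_lt (Finset.sup_mono (support_map_subset _ _)) hp
  have hg : P.gR.totalDegree ≤ 2 * P.e := gG_totalDegree he _ _ hp'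
  have h2 : (P.gR ^ i).totalDegree + P.N * (P.d - 1) ≤ P.K := by
    have h3 : (P.gR ^ i).totalDegree ≤ i * (2 * P.e) :=
      (totalDegree_pow _ _).trans (Nat.mul_le_mul_left _ hg)
    have h4 : i * (2 * P.e) ≤ 2 * P.e * P.D := by
      rw [mul_comm]
      exact Nat.mul_le_mul_left _ hi
    omega
  rw [pw, h1, trz_eq P hd1 he hp hH _ h2 hrK, mmat_pow']

theorem charpoly_coeff_eq [Fact P.r.Prime] (hd1 : 1 ≤ P.d) (he : 2 ≤ P.e)
    (hp : P.p.totalDegree < 2 * P.e) (hH : ∀ i, (P.HR i).totalDegree < P.d)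
    (hK : 2 * P.e * P.D + P.N * (P.d - 1) ≤ P.K)
    (hrK : P.K + P.N * P.K * (P.d - 1) + P.d * (P.K + 1) < P.r - 1)
    (hD : P.D * P.D + P.D + 2 < P.r - 1) {j : ℕ} (hj : j ≤ P.D) :
    (mmat hd1 hH P.gR).charpoly.coeff (P.D - j) = (-1) ^ j * P.expF P.pw j := by
  have h1 := charpoly_coeff_exp (mmat hd1 hH P.gR) (j := j) (fun i hi => by
    rw [card_fun_eq_D] at hi
    exact natCast_ne_zero_of_le_D P hD (Finset.mem_Ico.1 hi).1
      (Nat.lt_succ_iff.1 (Finset.mem_Ico.1 hi).2)) (by rw [card_fun_eq_D]; exact hj)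
  rw [card_fun_eq_D] at h1
  rw [h1, expF_eq P hD P.pw hj]
  congr 1
  unfold expc
  refine Finset.sum_congr rfl fun l _ => ?_
  congr 3
  refine Finset.sum_congr rfl fun i hi => ?_
  rw [pw_eq_trace P hd1 he hp hH hK hrK (Nat.lt_succ_iff.1 (Finset.mem_Ico.1 hi).2)]

theorem fd_eq [Fact P.r.Prime] (hd1 : 1 ≤ P.d) (he : 2 ≤ P.e) (hp : P.p.totalDegree < 2 * P.e)
    (hH : ∀ i, (P.HR i).totalDegree < P.d)
    (hK : 2 * P.e * P.D + P.N * (P.d - 1) ≤ P.K)
    (hrK : P.K + P.N * P.K * (P.d - 1) + P.d * (P.K + 1) < P.r - 1)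
    (hD : P.D * P.D + P.D + 2 < P.r - 1) (k : ℕ) (x : ZMod P.r) :
    P.fd k x = (Polynomial.derivative^[k] (mmat hd1 hH P.gR).charpoly).eval x := by
  have hdeg : (mmat hd1 hH P.gR).charpoly.natDegree = P.D := by
    rw [Matrix.charpoly_natDegree_eq_dim, card_fun_eq_D]
  have hf : (mmat hd1 hH P.gR).charpoly = ∑ j ∈ Finset.range (P.D + 1),
      Polynomial.C ((mmat hd1 hH P.gR).charpoly.coeff (P.D - j)) *
        Polynomial.X ^ (P.D - j) := by
    rw [Finset.sum_flip (fun m => Polynomial.C ((mmat hd1 hH P.gR).charpoly.coeff m) *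
        Polynomial.X ^ m)]
    conv_lhs => rw [Polynomial.as_sum_range_C_mul_X_pow (mmat hd1 hH P.gR).charpoly, hdeg]
  rw [hf, Polynomial.iterate_derivative_sum, Polynomial.eval_finsetSum]
  unfold fd
  refine Finset.sum_congr rfl fun j hj => ?_
  have hj' : j ≤ P.D := Nat.lt_succ_iff.1 (Finset.mem_range.1 hj)
  rw [Polynomial.iterate_derivative_C_mul, Polynomial.iterate_derivative_X_pow_eq_C_mul,
    Polynomial.eval_mul, Polynomial.eval_mul, Polynomial.eval_C, Polynomial.eval_C,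
    Polynomial.eval_pow, Polynomial.eval_X, charpoly_coeff_eq P hd1 he hp hH hK hrK hD hj']
  ring

theorem PPz_eq [Fact P.r.Prime] (hd1 : 1 ≤ P.d) (he : 2 ≤ P.e) (hp : P.p.totalDegree < 2 * P.e)
    (hH : ∀ i, (P.HR i).totalDegree < P.d)
    (hK : 2 * P.e * P.D + P.N * (P.d - 1) ≤ P.K)
    (hrK : P.K + P.N * P.K * (P.d - 1) + P.d * (P.K + 1) < P.r - 1)
    (hD : P.D * P.D + P.D + 2 < P.r - 1) (x : ZMod P.r) :
    P.PPz x = (P.U.PP (mmat hd1 hH P.gR).charpoly).eval x := by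
  have hy : ∀ k, P.yz k x = (P.U.y (mmat hd1 hH P.gR).charpoly k).eval x := by
    intro k
    unfold yz UP.y
    rw [Polynomial.eval_mul, Polynomial.eval_C]
    refine congrArg₂ (fun a b => a * b) rfl ?_
    by_cases hk : k = 0
    · rw [if_pos hk, if_pos hk, Polynomial.eval_sub, Polynomial.eval_C, Polynomial.eval_X]
      rfl
    · rw [if_neg hk, if_neg hk]
      exact fd_eq P hd1 he hp hH hK hrK hD k x
  have hB : ∀ j, P.Bz j x = ((P.U.a : ZMod P.r) *
      P.U.pm ((P.U.y (mmat hd1 hH P.gR).charpoly j).eval x) +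
      (P.U.a' : ZMod P.r) * P.U.pp ((P.U.y (mmat hd1 hH P.gR).charpoly j).eval x)) := by
    intro j
    rw [← hy j]
    rfl
  rw [UP.eval_PP]
  unfold PPz
  refine congrArg₂ (fun a b => a - b) (Finset.sum_congr rfl fun k _ => ?_) ?_
  · refine congrArg₂ (fun a b => a * b) ?_ (Finset.prod_congr rfl fun j _ => ?_)
    · rw [← hy k]
      rfl
    · by_cases hjk : j = k
      · rw [if_pos hjk, if_pos hjk]
      · rw [if_neg hjk, if_neg hjk, hB]
  · refine congrArg₂ (fun a b => a * b) rfl (Finset.prod_congr rfl fun j _ => hB j)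

end Prm

end Vale.Agent.P337
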