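import Mathlib
import Vale.Agent.Lib.P337.Main.FormEqC
import Vale.Agent.Lib.P337.Uni.Deg

/-!
P337: the residue of the decisive integer modulo a large prime is given by the formula.
-/

namespace Vale.Agent.P337

open MvPolynomial

/-- the exponential formula only uses the power sums with positive index at most `D` -/
theorem formEq_expc_congr {K : Type} [Field K] {D : ℕ} {S S' : ℕ → K}
    (h : ∀ i ∈ Finset.Ico 1 (D + 1), S i = S' i) (j : ℕ) : expc D S j = expc D S' j := by
  unfold expc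
  have h1 : (∑ i ∈ Finset.Ico 1 (D + 1),
      Polynomial.C ((-1) ^ (i - 1) * S i * ((i : ℕ) : K)⁻¹) * Polynomial.X ^ i) =
      ∑ i ∈ Finset.Ico 1 (D + 1),
        Polynomial.C ((-1) ^ (i - 1) * S' i * ((i : ℕ) : K)⁻¹) * Polynomial.X ^ i :=
    Finset.sum_congr rfl fun i hi => by rw [h i hi]
  rw [h1]

theorem formEq_decisive_congr {N d : ℕ} {R : Type} [CommRing R] (hd hd' : 1 ≤ d)
    {H H' : Fin N → MvPolynomial (Fin N) R} (hH : ∀ i, (H i).totalDegree < d)
    (hH' : ∀ i, (H' i).totalDegree < d) {g g' : MvPolynomial (Fin N) R} (U : UP)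
    (h1 : H = H') (h2 : g = g') : decisive hd hH g U = decisive hd' hH' g' U := by
  subst h1
  subst h2
  rfl

/-- degree of a polynomial in `g` -/
theorem formEq_totalDegree_aeval {N : ℕ} {R : Type} [CommRing R] (g : MvPolynomial (Fin N) R)
    (q : Polynomial R) :
    (Polynomial.aeval g q).totalDegree ≤ q.natDegree * g.totalDegree := by
  rw [Polynomial.aeval_eq_sum_range]
  refine totalDegree_finsetSum_le fun i hi => ?_
  rw [Finset.mem_range] at hi
  refine (totalDegree_smul_le _ _).trans ((totalDegree_pow _ _).trans ?_)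
  exact Nat.mul_le_mul_right _ (by omega)

theorem formEq_eval_aeval {N : ℕ} {R : Type} [CommRing R] (x : Fin N → R)
    (g : MvPolynomial (Fin N) R) (q : Polynomial R) :
    eval x (Polynomial.aeval g q) = q.eval (eval x g) := by
  have h := Polynomial.aeval_algHom_apply (MvPolynomial.aeval x : MvPolynomial (Fin N) R →ₐ[R] R) g q
  rw [Polynomial.coe_aeval_eq_eval] at h
  exact h.symm

/-- the residue of the decisive integer modulo a large prime is given by the formula -/
theorem nInt_cast_eq_form (P : Prm) (he : 2 ≤ P.e) (hp : P.p.totalDegree < 2 * P.e)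
    (hr : P.r.Prime)
    (hK : 2 * P.e * P.D * (P.D * (P.D * (2 * P.kap * (P.M + 1))) + 1) + P.N * (P.d - 1) ≤ P.K)
    (hrK : P.K + P.N * P.K * (P.d - 1) + P.d * (P.K + 1) + P.D * P.D + P.D + 2 < P.r - 1) :
    ((nInt he hp (2 ^ 2 ^ P.Es) P.L P.U : ℤ) : ZMod P.r) = P.form := by
  have : Fact P.r.Prime := ⟨hr⟩
  have hd1 : 1 ≤ P.d := by unfold Prm.d; omega
  have hD1 : 1 ≤ P.D := Nat.one_le_pow _ _ hd1
  have hH : ∀ i, (P.HR i).totalDegree < P.d := P.HR_deg he hp
  have hcard : Fintype.card (Fin P.N → Fin P.d) = P.D := by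
    rw [Fintype.card_fun, Fintype.card_fin, Fintype.card_fin]
    rfl
  have hmul : ∀ x : ℕ, 2 * P.e * P.D ≤ 2 * P.e * P.D * (x + 1) := fun x =>
    Nat.le_mul_of_pos_right _ (Nat.succ_pos x)
  have hK1 : 2 * P.e * P.D + P.N * (P.d - 1) ≤ P.K :=
    (Nat.add_le_add_right (hmul _) _).trans hK
  have hrK1 : P.K + P.N * P.K * (P.d - 1) + P.d * (P.K + 1) < P.r - 1 := by omega
  have hrD : P.D * P.D + P.D + 2 < P.r - 1 := by omega
  have hDr : P.D < P.r := by omega
  -- the decisive integer modulo `r`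
  have e1 : ((nInt he hp (2 ^ 2 ^ P.Es) P.L P.U : ℤ) : ZMod P.r) = decisive hd1 hH P.gR P.U := by
    have hHint := gH_deg_of he ((P.L : ℕ) : ℤ)
      (fun i : Fin P.N => ((bs (2 ^ 2 ^ P.Es) P.e i : ℕ) : ℤ)) hp
    have hfun : (fun i => map (Int.castRingHom (ZMod P.r)) (gH ((P.L : ℕ) : ℤ)
        (fun i : Fin P.N => ((bs (2 ^ 2 ^ P.Es) P.e i : ℕ) : ℤ)) P.p i)) = P.HR := by
      funext i
      rw [gH_map]
      unfold Prm.HR
      simp only [map_natCast]
      rfl
    have hgen : map (Int.castRingHom (ZMod P.r)) (gG P.e ((P.L : ℕ) : ℤ)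
        (fun i : Fin P.N => ((bs (2 ^ 2 ^ P.Es) P.e i : ℕ) : ℤ)) P.p) = P.gR := by
      rw [gG_map]
      unfold Prm.gR
      simp only [map_natCast]
      rfl
    have hH' : ∀ i, (map (Int.castRingHom (ZMod P.r)) (gH ((P.L : ℕ) : ℤ)
        (fun i : Fin P.N => ((bs (2 ^ 2 ^ P.Es) P.e i : ℕ) : ℤ)) P.p i)).totalDegree
          < 2 * P.e - 1 := by
      intro i
      have := congrFun hfun i
      rw [this]
      exact hH i
    have h1 := decisive_map (Int.castRingHom (ZMod P.r)) (d := 2 * P.e - 1) (by omega) hHint hH'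
      (gG P.e ((P.L : ℕ) : ℤ) (fun i : Fin P.N => ((bs (2 ^ 2 ^ P.Es) P.e i : ℕ) : ℤ)) P.p) P.U
    refine Eq.trans ?_ (h1.symm.trans ?_)
    · rfl
    · exact formEq_decisive_congr (d := 2 * P.e - 1) _ _ hH' hH P.U hfun hgen
  rw [e1]
  unfold decisive Prm.form
  set q : Polynomial (ZMod P.r) := P.U.PP (mmat hd1 hH P.gR).charpoly with hq
  have hdeg : q.natDegree ≤ P.D * (P.D * (2 * P.kap * (P.M + 1))) := by
    have h1 := PP_natDegree_le P.U (mmat hd1 hH P.gR).charpoly (by
      rw [Matrix.charpoly_natDegree_eq_dim, hcard]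
      exact le_rfl) hD1
    exact h1
  have hgdeg : P.gR.totalDegree ≤ 2 * P.e := by
    have hp' : (map (Int.castRingHom (ZMod P.r)) P.p).totalDegree < 2 * P.e :=
      lt_of_le_of_lt (Finset.sup_mono (support_map_subset _ _)) hp
    exact gG_totalDegree he _ _ hp'
  have key : ∀ i ∈ Finset.Ico 1 (P.D + 1),
      ((Polynomial.aeval (mmat hd1 hH P.gR) q) ^ i).trace =
        P.trz (fun z => P.PPz (P.gz z) ^ i) := by
    intro i hi
    rw [Finset.mem_Ico] at hi
    have h1 : (fun z => P.PPz (P.gz z) ^ i) =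
        fun z => eval (P.pt z) (Polynomial.aeval P.gR (q ^ i)) := by
      funext z
      rw [formEq_eval_aeval, Polynomial.eval_pow, P.PPz_eq hd1 he hp hH hK1 hrK1 hrD, P.gz_eq]
    have h2 : (Polynomial.aeval P.gR (q ^ i)).totalDegree + P.N * (P.d - 1) ≤ P.K := by
      refine le_trans (Nat.add_le_add_right ?_ _) hK
      refine (formEq_totalDegree_aeval _ _).trans ?_
      have h3 : (q ^ i).natDegree ≤ P.D * (P.D * (P.D * (2 * P.kap * (P.M + 1)))) := by
        refine Polynomial.natDegree_pow_le.trans ?_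
        exact Nat.mul_le_mul (by omega) hdeg
      calc (q ^ i).natDegree * P.gR.totalDegree
          ≤ (P.D * (P.D * (P.D * (2 * P.kap * (P.M + 1))))) * (2 * P.e) :=
            Nat.mul_le_mul h3 hgdeg
        _ = 2 * P.e * P.D * (P.D * (P.D * (2 * P.kap * (P.M + 1)))) := by ring
        _ ≤ 2 * P.e * P.D * (P.D * (P.D * (2 * P.kap * (P.M + 1))) + 1) :=
            Nat.mul_le_mul_left _ (Nat.le_succ _)
    rw [h1, P.trz_eq hd1 he hp hH _ h2 hrK1, mmat_aeval, map_pow]
  have hne : ∀ i ∈ Finset.Ico 1 (Fintype.card (Fin P.N → Fin P.d) + 1), ((i : ℕ) : ZMod P.r) ≠ 0 := by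
    intro i hi
    rw [hcard, Finset.mem_Ico] at hi
    intro h0
    rw [ZMod.natCast_eq_zero_iff] at h0
    have := Nat.le_of_dvd (by omega) h0
    omega
  rw [det_exp _ hne, hcard, P.expF_eq hrD _ le_rfl]
  exact formEq_expc_congr key P.D

end Vale.Agent.P337
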