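import Mathlib
import Vale.Agent.Lib.P337.Main.Defs
import Vale.Agent.Lib.P337.Uni.Complete
import Vale.Agent.Lib.P337.Uni.DetAeval

/-!
P337: completeness of the criterion.
-/

namespace Vale.Agent.P337

open MvPolynomial

/-! ### base change of the multiplication matrix of `g` -/

private theorem cpl_deg {N : ℕ} {R R' : Type} [CommRing R] [CommRing R'] (φ : R →+* R')
    (p : MvPolynomial (Fin N) R) : (map φ p).totalDegree ≤ p.totalDegree :=
  Finset.sup_mono (support_map_subset φ p)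

private theorem cpl_congr {N d : ℕ} {R : Type} [CommRing R] (hd : 1 ≤ d)
    {H H' : Fin N → MvPolynomial (Fin N) R} (hH : ∀ i, (H i).totalDegree < d)
    (hH' : ∀ i, (H' i).totalDegree < d) {g g' : MvPolynomial (Fin N) R} (h : H = H')
    (hg : g = g') : mmat hd hH g = mmat hd hH' g' := by
  subst h
  subst hg
  rfl

private theorem cpl_map {N e : ℕ} {R : Type} [CommRing R] (hd : 1 ≤ 2 * e - 1)
    {p : MvPolynomial (Fin N) ℤ} {s L : ℕ}
    (hH : ∀ i, (gH (L : ℤ) (fun i : Fin N => ((bs s e i : ℕ) : ℤ)) p i).totalDegree < 2 * e - 1)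
    (hH' : ∀ i, (gH (L : R) (fun i : Fin N => ((bs s e i : ℕ) : R))
      (map (Int.castRingHom R) p) i).totalDegree < 2 * e - 1) :
    mmat hd hH' (gG e (L : R) (fun i : Fin N => ((bs s e i : ℕ) : R))
      (map (Int.castRingHom R) p)) =
    (mmat hd hH (gG e (L : ℤ) (fun i : Fin N => ((bs s e i : ℕ) : ℤ)) p)).map
      (Int.castRingHom R) := by
  have h1 : (fun i => map (Int.castRingHom R)
      (gH (L : ℤ) (fun i : Fin N => ((bs s e i : ℕ) : ℤ)) p i)) =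
      gH (L : R) (fun i : Fin N => ((bs s e i : ℕ) : R)) (map (Int.castRingHom R) p) := by
    funext i
    rw [gH_map]
    simp only [eq_intCast, Int.cast_natCast]
  have h2 : map (Int.castRingHom R) (gG e (L : ℤ) (fun i : Fin N => ((bs s e i : ℕ) : ℤ)) p) =
      gG e (L : R) (fun i : Fin N => ((bs s e i : ℕ) : R)) (map (Int.castRingHom R) p) := by
    rw [gG_map]
    simp only [eq_intCast, Int.cast_natCast]
  have h3 : ∀ i, (map (Int.castRingHom R)
      (gH (L : ℤ) (fun i : Fin N => ((bs s e i : ℕ) : ℤ)) p i)).totalDegree < 2 * e - 1 := by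
    intro i
    rw [congrFun h1 i]
    exact hH' i
  rw [← mmat_map (Int.castRingHom R) hd hH h3]
  exact cpl_congr hd hH' h3 h1.symm h2.symm

private theorem cpl_charpoly {N e : ℕ} {R : Type} [CommRing R] (hd : 1 ≤ 2 * e - 1)
    {p : MvPolynomial (Fin N) ℤ} {s L : ℕ}
    (hH : ∀ i, (gH (L : ℤ) (fun i : Fin N => ((bs s e i : ℕ) : ℤ)) p i).totalDegree < 2 * e - 1)
    (hH' : ∀ i, (gH (L : R) (fun i : Fin N => ((bs s e i : ℕ) : R))
      (map (Int.castRingHom R) p) i).totalDegree < 2 * e - 1) :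
    (mmat hd hH' (gG e (L : R) (fun i : Fin N => ((bs s e i : ℕ) : R))
      (map (Int.castRingHom R) p))).charpoly =
    (mmat hd hH (gG e (L : ℤ) (fun i : Fin N => ((bs s e i : ℕ) : ℤ)) p)).charpoly.map
      (Int.castRingHom R) := by
  rw [cpl_map hd hH hH', Matrix.charpoly_map]

/-! ### the value of the minimum -/

private theorem cpl_val {N e : ℕ} (he : 2 ≤ e) {p : MvPolynomial (Fin N) ℤ} {s L A : ℕ}
    (hA : 1 ≤ A) {x : Fin N → ℝ} (hx0 : eval x (toR p) = 0)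
    (hx : ∑ i, x i ^ (2 * e) ≤ (A : ℝ)) :
    eval x (gG e (L : ℝ) (fun i : Fin N => ((bs s e i : ℕ) : ℝ)) (toR p)) ≤
      ((A * (1 + 2 * e * N * (s * 2 ^ (N * (2 * e - 1)))) : ℕ) : ℝ) := by
  have hA' : (1 : ℝ) ≤ A := by exact_mod_cast hA
  have h1 : ∀ i, x i ≤ A := by
    intro i
    by_cases h : x i ≤ 1
    · exact h.trans hA'
    · have h2 : 1 ≤ x i := by linarith
      have h3 : x i ≤ x i ^ (2 * e) := le_self_pow₀ h2 (by omega)
      have h4 : x i ^ (2 * e) ≤ ∑ j, x j ^ (2 * e) :=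
        Finset.single_le_sum (f := fun j => x j ^ (2 * e))
          (fun j _ => by rw [pow_mul]; positivity) (Finset.mem_univ i)
      linarith
  have h2 : ∀ i : Fin N, 2 * (e : ℝ) * ((bs s e i : ℕ) : ℝ) * x i ≤
      2 * (e : ℝ) * ((s * 2 ^ (N * (2 * e - 1)) : ℕ) : ℝ) * A := by
    intro i
    have h3 : ((bs s e i : ℕ) : ℝ) ≤ ((s * 2 ^ (N * (2 * e - 1)) : ℕ) : ℝ) := by
      have h4 : bs s e i ≤ s * 2 ^ (N * (2 * e - 1)) := by
        unfold bs
        exact Nat.mul_le_mul_left _ (Nat.pow_le_pow_right (by norm_num)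
          (Nat.mul_le_mul_right _ i.2.le))
      exact_mod_cast h4
    have h5 : 2 * (e : ℝ) * ((bs s e i : ℕ) : ℝ) * x i ≤ 2 * (e : ℝ) * ((bs s e i : ℕ) : ℝ) * A :=
      mul_le_mul_of_nonneg_left (h1 i) (by positivity)
    have h6 : 2 * (e : ℝ) * ((bs s e i : ℕ) : ℝ) * A ≤
        2 * (e : ℝ) * ((s * 2 ^ (N * (2 * e - 1)) : ℕ) : ℝ) * A :=
      mul_le_mul_of_nonneg_right (mul_le_mul_of_nonneg_left h3 (by positivity)) (by positivity)
    exact h5.trans h6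
  have h3 : eval x (gG e (L : ℝ) (fun i : Fin N => ((bs s e i : ℕ) : ℝ)) (toR p)) =
      2 * (e : ℝ) * L * eval x (toR p) + ∑ i, x i ^ (2 * e) +
        ∑ i : Fin N, 2 * (e : ℝ) * ((bs s e i : ℕ) : ℝ) * x i := by
    unfold gG
    simp only [map_add, map_mul, map_sum, eval_C, eval_X, map_pow]
  rw [h3, hx0, mul_zero, zero_add]
  have h4 : ∑ i : Fin N, 2 * (e : ℝ) * ((bs s e i : ℕ) : ℝ) * x i ≤
      ∑ i : Fin N, 2 * (e : ℝ) * ((s * 2 ^ (N * (2 * e - 1)) : ℕ) : ℝ) * A :=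
    Finset.sum_le_sum fun i _ => h2 i
  rw [Finset.sum_const, Finset.card_univ, Fintype.card_fin, nsmul_eq_mul] at h4
  refine (add_le_add hx h4).trans (le_of_eq ?_)
  push_cast
  ring

/-- completeness of the criterion -/
theorem nInt_complete {N e : ℕ} (he : 2 ≤ e) {p : MvPolynomial (Fin N) ℤ}
    (hp : p.totalDegree < 2 * e) (hpos : ∀ x, 0 ≤ eval x (toR p)) {Q : ℕ} (hQ : l1 p ≤ Q)
    {s L D C S M kap a w0 Z : ℕ} (hD : D = (2 * e - 1) ^ N) (hs : thS N e Q < s)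
    (hC : thC N e Q s < C) (hL : thL1 N e Q s < L)
    (hS : thY D C (thu N e Q s L) ^ D ≤ S) (hM : S * thY D C (thu N e Q s L) ≤ 2 ^ (M + 1))
    (hw0 : w0 = 6 * D * (D ^ 3 + 3) + 4) (hZ : Z = 8 * (D + 2))
    (hkap : 64 * (D * (2 * D ^ 3 + 6) + w0) ≤ 2 ^ kap)
    (ha : 32 * (D ^ 2 + 1) * (D * (2 * D ^ 3 + 6) + w0) ≤ a)
    (hz : ∃ x, eval x (toR p) = 0) :
    ∃ a' Th rho q : ℕ, a ≤ a' ∧ a' ≤ 2 * a ∧ 3 * Th < Z * w0 ∧ rho < q ∧ q ≤ 2 * D ^ 3 + 6 ∧
      nInt he hp s L ⟨D, C, S, M, kap, a, a', Z, Th, w0, rho, q⟩ < 0 := by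
  have hd : 1 ≤ 2 * e - 1 := by omega
  have hH := gH_deg_of he (L : ℤ) (fun i : Fin N => ((bs s e i : ℕ) : ℤ)) hp
  have hpR : (map (Int.castRingHom ℝ) p).totalDegree < 2 * e :=
    lt_of_le_of_lt (cpl_deg _ _) hp
  have hpC : (map (Int.castRingHom ℂ) p).totalDegree < 2 * e :=
    lt_of_le_of_lt (cpl_deg _ _) hp
  have hHR := gH_deg_of he (L : ℝ) (fun i : Fin N => ((bs s e i : ℕ) : ℝ)) hpR
  have hHC := gH_deg_of he (L : ℂ) (fun i : Fin N => ((bs s e i : ℕ) : ℂ)) hpC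
  -- the characteristic polynomial
  set f := (mmat hd hH (gG e (L : ℤ) (fun i : Fin N => ((bs s e i : ℕ) : ℤ)) p)).charpoly with hf
  have hfR := cpl_charpoly (R := ℝ) hd hH hHR
  have hfC := cpl_charpoly (R := ℂ) hd hH hHC
  rw [← hf] at hfR hfC
  have hmon : f.Monic := Matrix.charpoly_monic _
  have hdeg : f.natDegree = D := by
    rw [hf, Matrix.charpoly_natDegree_eq_dim, Fintype.card_fun, Fintype.card_fin, Fintype.card_fin,
      hD]
  have hD1 : 1 ≤ D := by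
    rw [hD]
    exact Nat.one_le_pow _ _ (by omega)
  -- distinct roots
  have hnd : (f.map (Int.castRingHom ℂ)).roots.Nodup := by
    rw [← hfC]
    exact generic_nodup he hd hp hQ hs hL hHC
  -- bound for the roots
  have hroot : ∀ z ∈ (f.map (Int.castRingHom ℂ)).roots, ‖z‖ ≤ (thu N e Q s L : ℕ) := by
    intro z hz
    rw [← hfC] at hz
    have h1 := (Polynomial.mem_roots'.1 hz).2
    have hφ : ∀ n : ℤ, (fun a : ℂ => ‖a‖) (Int.castRingHom ℂ n) ≤ |(n : ℝ)| := by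
      intro n
      simp
    have hLn : (fun a : ℂ => ‖a‖) (L : ℂ) ≤ (L : ℕ) := by
      simp
    have hb : ∀ i : Fin N, (fun a : ℂ => ‖a‖) ((fun i : Fin N => ((bs s e i : ℕ) : ℂ)) i) ≤
        ((s * 2 ^ (N * (2 * e - 1)) : ℕ) : ℝ) := by
      intro i
      have h4 : bs s e i ≤ s * 2 ^ (N * (2 * e - 1)) := by
        unfold bs
        exact Nat.mul_le_mul_left _ (Nat.pow_le_pow_right (by norm_num)
          (Nat.mul_le_mul_right _ i.2.le))
      simp only [Complex.norm_natCast]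
      exact_mod_cast h4
    have h2 := wnorm_gH_le isNrm_complex (Int.castRingHom ℂ) hφ he hp hQ hLn hb
    have h3 := wnorm_gG_le isNrm_complex (Int.castRingHom ℂ) hφ he hp hQ hLn hb
    refine (mmat_root_le ?_ hd hHC h2 _ z h1).trans h3
    have h5 : 1 ≤ 2 * e * Q * L + s * 2 ^ (N * (2 * e - 1)) + 1 := by omega
    exact_mod_cast h5
  -- the real root
  obtain ⟨x, hx0, hx⟩ := gap_zero he hp hQ hpos hz
  obtain ⟨ξ, hξ, hξ'⟩ := exists_min he hpos (L := (L : ℝ)) (Nat.cast_nonneg L)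
    (fun i : Fin N => ((bs s e i : ℕ) : ℝ))
  have hroot0 : (f.map (Int.castRingHom ℝ)).eval
      (eval ξ (gG e (L : ℝ) (fun i : Fin N => ((bs s e i : ℕ) : ℝ)) (toR p))) = 0 := by
    rw [← hfR]
    exact mmat_eigen hd hHR _ ξ hξ'
  have hlt : eval ξ (gG e (L : ℝ) (fun i : Fin N => ((bs s e i : ℕ) : ℝ)) (toR p)) < C := by
    have h1 := cpl_val (N := N) (s := s) (L := L) he (by omega) hx0 hx
    have h2 : ((thC N e Q s : ℕ) : ℝ) < C := by exact_mod_cast hC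
    exact lt_of_le_of_lt ((hξ x).trans h1) h2
  obtain ⟨a', Th, rho, q, h1, h2, h3, h4, h5, h6⟩ := uni_complete hmon hD1 hdeg hnd hroot hS hM
    hw0 hZ hkap ha hroot0 hlt
  refine ⟨a', Th, rho, q, h1, h2, h3, h4, h5, h6 _ ?_⟩
  -- the decisive integer
  have hH2 : ∀ i, (map (Int.castRingHom ℂ)
      (gH (L : ℤ) (fun i : Fin N => ((bs s e i : ℕ) : ℤ)) p i)).totalDegree < 2 * e - 1 :=
    fun i => lt_of_le_of_lt (cpl_deg _ _) (hH i)
  have h7 := decisive_map (Int.castRingHom ℂ) hd hH hH2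
    (gG e (L : ℤ) (fun i : Fin N => ((bs s e i : ℕ) : ℤ)) p)
    ⟨D, C, S, M, kap, a, a', Z, Th, w0, rho, q⟩
  have h8 : ((nInt he hp s L ⟨D, C, S, M, kap, a, a', Z, Th, w0, rho, q⟩ : ℤ) : ℂ) =
      Int.castRingHom ℂ (decisive hd hH (gG e (L : ℤ) (fun i : Fin N => ((bs s e i : ℕ) : ℤ)) p)
        ⟨D, C, S, M, kap, a, a', Z, Th, w0, rho, q⟩) := rfl
  rw [h8, ← h7]
  unfold decisive
  rw [det_aeval_eq_prod, mmat_map (Int.castRingHom ℂ) hd hH hH2, Matrix.charpoly_map]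

end Vale.Agent.P337
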