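import Mathlib
import Vale.Agent.Lib.P337.Main.Defs
import Vale.Agent.Lib.P337.Uni.Sound

/-!
P337: soundness of the criterion.
-/

namespace Vale.Agent.P337

open MvPolynomial

/-- the linear term is absorbed by the leading term -/
theorem sound_absorb {e : ℕ} (he : 2 ≤ e) {b B : ℕ} (hb : b ≤ B) (x : ℝ) :
    -(2 * (e : ℝ) * (b : ℝ) * x) ≤ x ^ (2 * e) / 2 + (4 * (e : ℝ) * (B : ℝ) + 1) ^ 2 := by
  have hb' : (b : ℝ) ≤ (B : ℝ) := by exact_mod_cast hb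
  have hb0 : (0 : ℝ) ≤ (b : ℝ) := by positivity
  have hB0 : (0 : ℝ) ≤ (B : ℝ) := by positivity
  have he0 : (0 : ℝ) ≤ (e : ℝ) := by positivity
  have hx0 : (0 : ℝ) ≤ |x| := abs_nonneg x
  have heb : (e : ℝ) * (b : ℝ) ≤ (e : ℝ) * (B : ℝ) := mul_le_mul_of_nonneg_left hb' he0
  have heb0 : (0 : ℝ) ≤ (e : ℝ) * (b : ℝ) := mul_nonneg he0 hb0
  have heB0 : (0 : ℝ) ≤ (e : ℝ) * (B : ℝ) := mul_nonneg he0 hB0
  have h1 : -(2 * (e : ℝ) * (b : ℝ) * x) ≤ 2 * ((e : ℝ) * (B : ℝ)) * |x| := by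
    have h2 : -x ≤ |x| := neg_le_abs x
    calc -(2 * (e : ℝ) * (b : ℝ) * x) = 2 * ((e : ℝ) * (b : ℝ)) * (-x) := by ring
      _ ≤ 2 * ((e : ℝ) * (b : ℝ)) * |x| := by
          apply mul_le_mul_of_nonneg_left h2
          linarith
      _ ≤ 2 * ((e : ℝ) * (B : ℝ)) * |x| := by
          apply mul_le_mul_of_nonneg_right _ hx0
          linarith
  have hpow : x ^ (2 * e) = |x| ^ (2 * e) := (Even.pow_abs (even_two_mul e) x).symm
  rw [hpow]
  rcases le_total |x| (4 * ((e : ℝ) * (B : ℝ)) + 1) with h | h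
  · have h3 : (0 : ℝ) ≤ |x| ^ (2 * e) / 2 := by positivity
    have h4 : 2 * ((e : ℝ) * (B : ℝ)) * |x| ≤ (4 * ((e : ℝ) * (B : ℝ)) + 1) ^ 2 := by
      nlinarith
    have h5 : (4 * (e : ℝ) * (B : ℝ) + 1) ^ 2 = (4 * ((e : ℝ) * (B : ℝ)) + 1) ^ 2 := by ring
    rw [h5]
    linarith
  · have h3 : |x| ^ 2 ≤ |x| ^ (2 * e) := pow_le_pow_right₀ (by linarith) (by omega)
    have h4 : 2 * ((e : ℝ) * (B : ℝ)) * |x| ≤ |x| ^ 2 / 2 := by nlinarith
    have h5 : (0 : ℝ) ≤ (4 * (e : ℝ) * (B : ℝ) + 1) ^ 2 := by positivity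
    linarith

/-- polynomials in a polynomial, evaluated -/
theorem sound_eval_aeval {N : ℕ} (ξ : Fin N → ℝ) (g : MvPolynomial (Fin N) ℝ)
    (P : Polynomial ℝ) : eval ξ (Polynomial.aeval g P) = P.eval (eval ξ g) := by
  have h : Polynomial.aeval (eval ξ g) P = eval ξ (Polynomial.aeval g P) :=
    Polynomial.aeval_algHom_apply (aeval ξ : MvPolynomial (Fin N) ℝ →ₐ[ℝ] ℝ) g P
  rw [← h]
  simp [Polynomial.aeval_def, Polynomial.eval₂_eq_eval_map]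

/-- the total degree does not grow under base change -/
theorem sound_totalDegree_map_le {N : ℕ} {R R' : Type} [CommRing R] [CommRing R'] (φ : R →+* R')
    (p : MvPolynomial (Fin N) R) : (map φ p).totalDegree ≤ p.totalDegree :=
  Finset.sup_mono (support_map_subset φ p)

/-- a real point where the value of `g` is below the threshold -/
theorem sound_point {N e : ℕ} (he : 2 ≤ e) {p : MvPolynomial (Fin N) ℤ}
    (hp : p.totalDegree < 2 * e) {s L : ℕ} {U : UP} (hD : U.D = (2 * e - 1) ^ N)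
    (ha : 0 < U.a) (haa : U.a ≤ U.a') (haa' : U.a' ≤ 2 * U.a)
    (hTh : 3 * U.Th < U.Z * U.w0) (h : nInt he hp s L U < 0) :
    ∃ ξ : Fin N → ℝ, 2 * (e : ℝ) * (L : ℝ) * eval ξ (toR p) + ∑ i, ξ i ^ (2 * e) +
      ∑ i : Fin N, 2 * (e : ℝ) * ((bs s e i : ℕ) : ℝ) * ξ i < (U.C : ℝ) := by
  have hd : 1 ≤ 2 * e - 1 := by omega
  have hD1 : 1 ≤ U.D := by
    rw [hD]
    exact Nat.one_le_pow _ _ (by omega)
  have hHZ := gH_deg_of he (L : ℤ) (fun i : Fin N => ((bs s e i : ℕ) : ℤ)) hp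
  have hH' : ∀ i, (map (Int.castRingHom ℝ) (gH (L : ℤ)
      (fun i : Fin N => ((bs s e i : ℕ) : ℤ)) p i)).totalDegree < 2 * e - 1 := by
    intro i
    exact lt_of_le_of_lt (sound_totalDegree_map_le _ _) (hHZ i)
  have h1 := decisive_map (Int.castRingHom ℝ) hd hHZ hH'
    (gG e (L : ℤ) (fun i : Fin N => ((bs s e i : ℕ) : ℤ)) p) U
  have h2 : (Int.castRingHom ℝ) (nInt he hp s L U) < 0 := by
    have h3 : ((nInt he hp s L U : ℤ) : ℝ) < ((0 : ℤ) : ℝ) := Int.cast_lt.mpr h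
    simpa using h3
  have h3 : decisive hd hH' (map (Int.castRingHom ℝ)
      (gG e (L : ℤ) (fun i : Fin N => ((bs s e i : ℕ) : ℤ)) p)) U < 0 := by
    rw [h1]
    exact h2
  unfold decisive at h3
  rw [← mmat_aeval] at h3
  obtain ⟨ξ, hξ⟩ : ∃ ξ : Fin N → ℝ, eval ξ (Polynomial.aeval (map (Int.castRingHom ℝ)
      (gG e (L : ℤ) (fun i : Fin N => ((bs s e i : ℕ) : ℤ)) p))
        (U.PP (mmat hd hH' (map (Int.castRingHom ℝ)
          (gG e (L : ℤ) (fun i : Fin N => ((bs s e i : ℕ) : ℤ)) p))).charpoly)) < 0 := by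
    by_contra hcon
    push Not at hcon
    exact absurd (mmat_det_nonneg hd hH' _ (fun ξ _ => hcon ξ)) (not_le.mpr h3)
  rw [sound_eval_aeval] at hξ
  have h4 := uni_sound U hD1 ha haa haa' hTh _ _ hξ
  refine ⟨ξ, ?_⟩
  rw [gG_map] at h4
  unfold gG at h4
  simpa [eval_sum] using h4

/-- soundness of the criterion -/
theorem nInt_sound {N e : ℕ} (he : 2 ≤ e) {p : MvPolynomial (Fin N) ℤ}
    (hp : p.totalDegree < 2 * e) (hpos : ∀ x, 0 ≤ eval x (toR p)) {Q : ℕ} (hQ : l1 p ≤ Q)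
    {s L : ℕ} {U : UP} (hD : U.D = (2 * e - 1) ^ N) (hC : thC N e Q s < U.C)
    (hL : thL2 N e Q s U.C < L) (ha : 0 < U.a) (haa : U.a ≤ U.a') (haa' : U.a' ≤ 2 * U.a)
    (hTh : 3 * U.Th < U.Z * U.w0) (h : nInt he hp s L U < 0) : ∃ x, eval x (toR p) = 0 := by
  obtain ⟨ξ, hξ⟩ := sound_point he hp hD ha haa haa' hTh h
  -- the constant
  have hbs : ∀ i : Fin N, bs s e i ≤ s * 2 ^ (N * (2 * e - 1)) := by
    intro i
    unfold bs
    apply Nat.mul_le_mul_left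
    apply Nat.pow_le_pow_right (by norm_num)
    exact Nat.mul_le_mul_right _ i.2.le
  refine gap_pos he hp hQ hpos
    (c := 2 * (U.C + N * (4 * e * (s * 2 ^ (N * (2 * e - 1))) + 1) ^ 2)) ?_
    (L := 2 * (L : ℝ)) ?_ ξ ?_
  · have h1 : (1 + thU N e Q 1 0) ^ ((2 * e - 1) ^ N) + 1 ≤ thC N e Q s := by
      unfold thC
      exact Nat.le_mul_of_pos_right _ (by positivity)
    have h2 : U.C ≤ 2 * (U.C + N * (4 * e * (s * 2 ^ (N * (2 * e - 1))) + 1) ^ 2) := by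
      have := Nat.zero_le (N * (4 * e * (s * 2 ^ (N * (2 * e - 1))) + 1) ^ 2)
      omega
    omega
  · have h1 : (2 * (U.C + N * (4 * e * (s * 2 ^ (N * (2 * e - 1))) + 1) ^ 2) +
        thU N e Q 1 0) ^ ((2 * e - 1) ^ N) + 1 < 2 * L := by
      unfold thL2 at hL
      omega
    exact_mod_cast h1
  · have h1 : ∑ i : Fin N, -(2 * (e : ℝ) * ((bs s e i : ℕ) : ℝ) * ξ i) ≤
        ∑ i : Fin N, (ξ i ^ (2 * e) / 2 +
          (4 * (e : ℝ) * ((s * 2 ^ (N * (2 * e - 1)) : ℕ) : ℝ) + 1) ^ 2) :=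
      Finset.sum_le_sum fun i _ => sound_absorb he (hbs i) (ξ i)
    rw [Finset.sum_neg_distrib, Finset.sum_add_distrib, Finset.sum_const, Finset.card_univ,
      Fintype.card_fin, nsmul_eq_mul, ← Finset.sum_div] at h1
    have h2 : 2 * (e : ℝ) * (2 * (L : ℝ)) * eval ξ (toR p) + ∑ i, ξ i ^ (2 * e) <
        2 * ((U.C : ℝ) + (N : ℝ) * (4 * (e : ℝ) *
          ((s * 2 ^ (N * (2 * e - 1)) : ℕ) : ℝ) + 1) ^ 2) := by
      nlinarith
    refine lt_of_lt_of_eq h2 ?_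
    push_cast
    ring

end Vale.Agent.P337
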